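import Mathlib

/-!
Ruzsa's digit construction for sets of integers without `k`-th power differences.

Given a squarefree modulus `m` and a set `R` of residues below `m` such that no two
distinct members of `R` differ by a `k`-th power residue modulo `m`, the integers below
`m ^ (k * t)` whose base-`m` digits in positions divisible by `k` lie in `R` contain
no two elements differing by a positive `k`-th power.
-/

namespace Vale.Agent.Helper7.Ruzsa

/-- The digit set of level `t`: defined by recursion, adding one block of `k` digits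
at the bottom (lowest digit in `R`, the next `k - 1` digits free). -/
def digitSet (m k : ℕ) (R : Finset ℕ) : ℕ → Finset ℕ
  | 0 => {0}
  | t + 1 => ((R ×ˢ Finset.range (m ^ (k - 1))) ×ˢ digitSet m k R t).image
      (fun x => x.1.1 + m * x.1.2 + m ^ k * x.2)

theorem pow_split {m k : ℕ} (hk : 1 ≤ k) : m ^ k = m * m ^ (k - 1) := by
  rw [← pow_succ']
  congr 1
  omega

theorem digitSet_lt {m k : ℕ} {R : Finset ℕ} (hm : 1 < m) (hk : 1 ≤ k)
    (hR : ∀ r ∈ R, r < m) : ∀ t, ∀ a ∈ digitSet m k R t, a < m ^ (k * t) := by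
  intro t
  induction t with
  | zero =>
    intro a ha
    simp only [digitSet, Finset.mem_singleton] at ha
    subst ha
    positivity
  | succ t ih =>
    intro a ha
    rw [digitSet, Finset.mem_image] at ha
    obtain ⟨⟨⟨r, f⟩, a₁⟩, hx, rfl⟩ := ha
    simp only [Finset.mem_product, Finset.mem_range] at hx
    obtain ⟨⟨hr, hf⟩, ha₁⟩ := hx
    have h1 : r < m := hR r hr
    have h3 : a₁ + 1 ≤ m ^ (k * t) := ih a₁ ha₁
    have hmk : m ^ k = m * m ^ (k - 1) := pow_split hk
    have h4 : m * (f + 1) ≤ m * m ^ (k - 1) := Nat.mul_le_mul_left m hf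
    have h5 : m ^ k * (a₁ + 1) ≤ m ^ k * m ^ (k * t) := Nat.mul_le_mul_left _ h3
    have h6 : m ^ (k * (t + 1)) = m ^ k * m ^ (k * t) := by
      rw [← pow_add]
      congr 1
      ring
    show r + m * f + m ^ k * a₁ < m ^ (k * (t + 1))
    rw [h6]
    nlinarith

theorem digitSet_inj {m k : ℕ} (hm : 1 < m) (hk : 1 ≤ k) {r f a r' f' a' : ℕ}
    (hr : r < m) (hr' : r' < m) (hf : f < m ^ (k - 1)) (hf' : f' < m ^ (k - 1))
    (h : r + m * f + m ^ k * a = r' + m * f' + m ^ k * a') :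
    r = r' ∧ f = f' ∧ a = a' := by
  have hmk : m ^ k = m * m ^ (k - 1) := pow_split hk
  have e1 : r + m * (f + m ^ (k - 1) * a) = r' + m * (f' + m ^ (k - 1) * a') := by
    rw [hmk] at h
    linarith
  have hrr : r = r' := by
    have := congrArg (· % m) e1
    simpa [Nat.add_mul_mod_self_left, Nat.mod_eq_of_lt hr, Nat.mod_eq_of_lt hr'] using this
  subst hrr
  have e2 : f + m ^ (k - 1) * a = f' + m ^ (k - 1) * a' := by
    have : m * (f + m ^ (k - 1) * a) = m * (f' + m ^ (k - 1) * a') := by omega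
    exact Nat.eq_of_mul_eq_mul_left (by omega) this
  have hff : f = f' := by
    have := congrArg (· % m ^ (k - 1)) e2
    simpa [Nat.add_mul_mod_self_left, Nat.mod_eq_of_lt hf, Nat.mod_eq_of_lt hf'] using this
  subst hff
  refine ⟨rfl, rfl, ?_⟩
  have : m ^ (k - 1) * a = m ^ (k - 1) * a' := by omega
  exact Nat.eq_of_mul_eq_mul_left (by positivity) this

theorem digitSet_card {m k : ℕ} {R : Finset ℕ} (hm : 1 < m) (hk : 1 ≤ k)
    (hR : ∀ r ∈ R, r < m) :
    ∀ t, (digitSet m k R t).card = (R.card * m ^ (k - 1)) ^ t := by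
  intro t
  induction t with
  | zero => simp [digitSet]
  | succ t ih =>
    rw [digitSet, Finset.card_image_of_injOn, Finset.card_product, Finset.card_product,
      Finset.card_range, ih, pow_succ]
    · ring
    · rintro ⟨⟨r, f⟩, a⟩ hx ⟨⟨r', f'⟩, a'⟩ hy hxy
      simp only [Finset.coe_product, Set.mem_prod, Finset.mem_coe, Finset.mem_range] at hx hy
      obtain ⟨⟨hr, hf⟩, -⟩ := hx
      obtain ⟨⟨hr', hf'⟩, -⟩ := hy
      obtain ⟨h1, h2, h3⟩ := digitSet_inj hm hk (hR r hr) (hR r' hr') hf hf' hxy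
      subst h1 h2 h3
      rfl

theorem digitSet_noPow {m k : ℕ} {R : Finset ℕ} (hm : Squarefree m) (hm1 : 1 < m)
    (hk : 1 ≤ k) (hRm : ∀ r ∈ R, r < m)
    (hR : ∀ r ∈ R, ∀ r' ∈ R, r ≠ r' → ∀ x : ℕ, (x ^ k + r') % m ≠ r % m) :
    ∀ t, ∀ a ∈ digitSet m k R t, ∀ b ∈ digitSet m k R t, ∀ n : ℕ, 1 ≤ n →
      a ≠ b + n ^ k := by
  intro t
  induction t with
  | zero =>
    intro a ha b hb n hn h
    simp only [digitSet, Finset.mem_singleton] at ha hb
    subst ha hb
    have : 0 < n ^ k := by positivity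
    omega
  | succ t ih =>
    intro a ha b hb n hn h
    rw [digitSet, Finset.mem_image] at ha hb
    obtain ⟨⟨⟨r, f⟩, a₁⟩, hx, rfl⟩ := ha
    obtain ⟨⟨⟨r', f'⟩, b₁⟩, hy, rfl⟩ := hb
    simp only [Finset.mem_product, Finset.mem_range] at hx hy
    obtain ⟨⟨hr, hf⟩, ha₁⟩ := hx
    obtain ⟨⟨hr', hf'⟩, hb₁⟩ := hy
    have hmk : m ^ k = m * m ^ (k - 1) := pow_split hk
    have h' : r + m * f + m ^ k * a₁ = r' + m * f' + m ^ k * b₁ + n ^ k := h
    by_cases hrr : r = r'
    · subst hrr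
      have hdvd : m ∣ n ^ k := by
        have e : m * (f + m ^ (k - 1) * a₁) = m * (f' + m ^ (k - 1) * b₁) + n ^ k := by
          rw [hmk] at h'
          linarith
        have h2 : m ∣ m * (f' + m ^ (k - 1) * b₁) + n ^ k := ⟨_, e.symm⟩
        exact (Nat.dvd_add_right (Dvd.intro _ rfl)).mp h2
      have hdvd' : m ∣ n := (hm.dvd_pow_iff_dvd (by omega)).mp hdvd
      obtain ⟨n₁, rfl⟩ := hdvd'
      rw [mul_pow] at h'
      have e3 : r + m * f + m ^ k * a₁ = r + m * f' + m ^ k * (b₁ + n₁ ^ k) := by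
        rw [h']
        ring
      obtain ⟨-, -, e4⟩ := digitSet_inj hm1 hk (r := r) (r' := r)
        (hRm r hr) (hRm r hr) hf hf' e3
      have hn₁ : 1 ≤ n₁ := by
        rcases Nat.eq_zero_or_pos n₁ with h0 | h0
        · subst h0
          simp at hn
        · exact h0
      exact ih a₁ ha₁ b₁ hb₁ n₁ hn₁ e4
    · apply hR r hr r' hr' hrr n
      have e : n ^ k + r' + m * (f' + m ^ (k - 1) * b₁) = r + m * (f + m ^ (k - 1) * a₁) := by
        rw [hmk] at h'
        linarith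
      have := congrArg (· % m) e
      simpa [Nat.add_mul_mod_self_left] using this

theorem rpow_key {m k q : ℕ} (hm1 : 1 < m) (hk : 1 ≤ k) (hq : 1 ≤ q) :
    (m : ℝ) ^ ((k : ℝ) - 1 + Real.log q / Real.log m) = (m : ℝ) ^ (k - 1) * q := by
  have hm0 : (0 : ℝ) < m := by exact_mod_cast (by omega : 0 < m)
  have hlog : Real.log m ≠ 0 := by
    have : 0 < Real.log m := Real.log_pos (by exact_mod_cast hm1)
    exact ne_of_gt this
  have hq0 : (0 : ℝ) < q := by exact_mod_cast hq
  rw [Real.rpow_add hm0]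
  congr 1
  · rw [← Nat.cast_pred hk]
    exact Real.rpow_natCast _ _
  · rw [Real.rpow_def_of_pos hm0, mul_div_cancel₀ _ hlog, Real.exp_log hq0]

/-- Ruzsa's lower bound in general form: a squarefree modulus `m > 1` and a nonempty set `R`
of residues below `m`, no two distinct members of which differ by a `k`-th power residue
modulo `m`, give subsets of `{1, ..., N}` without positive `k`-th power differences of size
at least `c * N ^ ((k - 1 + log |R| / log m) / k)`. -/
theorem lower_bound {m k : ℕ} {R : Finset ℕ} (hm : Squarefree m) (hm1 : 1 < m) (hk : 1 ≤ k)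
    (hRne : R.Nonempty) (hRm : ∀ r ∈ R, r < m)
    (hR : ∀ r ∈ R, ∀ r' ∈ R, r ≠ r' → ∀ x : ℕ, (x ^ k + r') % m ≠ r % m) :
    ∃ c : ℝ, 0 < c ∧ ∀ N : ℕ, 1 ≤ N → ∃ A : Finset ℕ, A ⊆ Finset.Icc 1 N ∧
      (∀ a ∈ A, ∀ b ∈ A, ∀ n : ℕ, 1 ≤ n → (a : ℤ) - b ≠ (n : ℤ) ^ k) ∧
      c * (N : ℝ) ^ (((k : ℝ) - 1 + Real.log R.card / Real.log m) / k) ≤ A.card := by
  have hcard : 1 ≤ R.card := Finset.card_pos.mpr hRne
  have hq1 : 1 ≤ R.card * m ^ (k - 1) := Nat.mul_pos hcard (by positivity)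
  have hq0 : (0 : ℝ) < ((R.card * m ^ (k - 1) : ℕ) : ℝ) := by exact_mod_cast hq1
  refine ⟨1 / ((R.card * m ^ (k - 1) : ℕ) : ℝ), by positivity, ?_⟩
  intro N hN
  have hmk1 : 1 < m ^ k := Nat.one_lt_pow (by omega) hm1
  have hlow : (m ^ k) ^ (Nat.log (m ^ k) N) ≤ N := Nat.pow_log_le_self _ (by omega)
  have hhigh : N < (m ^ k) ^ (Nat.log (m ^ k) N + 1) := Nat.lt_pow_succ_log_self hmk1 N
  generalize Nat.log (m ^ k) N = t at hlow hhigh
  refine ⟨(digitSet m k R t).image (· + 1), ?_, ?_, ?_⟩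
  · intro x hx
    rw [Finset.mem_image] at hx
    obtain ⟨a, ha, rfl⟩ := hx
    have := digitSet_lt hm1 hk hRm t a ha
    rw [pow_mul] at this
    rw [Finset.mem_Icc]
    omega
  · intro x hx y hy n hn h
    rw [Finset.mem_image] at hx hy
    obtain ⟨a, ha, rfl⟩ := hx
    obtain ⟨b, hb, rfl⟩ := hy
    apply digitSet_noPow hm hm1 hk hRm hR t a ha b hb n hn
    have : (a : ℤ) = b + (n : ℤ) ^ k := by
      push_cast at h
      linarith
    exact_mod_cast this
  · rw [Finset.card_image_of_injective _ (add_left_injective 1), digitSet_card hm1 hk hRm t]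
    have hm0 : (0 : ℝ) < m := by exact_mod_cast (by omega : 0 < m)
    have hk0 : (0 : ℝ) < k := by exact_mod_cast hk
    have hlogm : 0 < Real.log m := Real.log_pos (by exact_mod_cast hm1)
    have hlogR : 0 ≤ Real.log R.card := Real.log_nonneg (by exact_mod_cast hcard)
    have hk1 : (0 : ℝ) ≤ (k : ℝ) - 1 := by
      have : (1 : ℝ) ≤ k := by exact_mod_cast hk
      linarith
    have hγ : 0 ≤ ((k : ℝ) - 1 + Real.log R.card / Real.log m) / k := by positivity
    have hN' : (N : ℝ) ≤ ((m : ℝ) ^ k) ^ (t + 1) := by exact_mod_cast hhigh.le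
    have hqeq : ((R.card * m ^ (k - 1) : ℕ) : ℝ)
        = (m : ℝ) ^ ((k : ℝ) - 1 + Real.log R.card / Real.log m) := by
      rw [rpow_key hm1 hk hcard]
      push_cast
      ring
    have hpow : (((m : ℝ) ^ k) ^ (t + 1)) ^ (((k : ℝ) - 1 + Real.log R.card / Real.log m) / k)
        = ((R.card * m ^ (k - 1) : ℕ) : ℝ) ^ (t + 1) := by
      rw [hqeq, ← pow_mul, ← Real.rpow_natCast, ← Real.rpow_natCast, ← Real.rpow_mul hm0.le,
        ← Real.rpow_mul hm0.le]
      congr 1
      push_cast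
      field_simp
    have hle : (N : ℝ) ^ (((k : ℝ) - 1 + Real.log R.card / Real.log m) / k)
        ≤ ((R.card * m ^ (k - 1) : ℕ) : ℝ) ^ (t + 1) := by
      rw [← hpow]
      exact Real.rpow_le_rpow (Nat.cast_nonneg N) hN' hγ
    rw [Nat.cast_pow]
    calc 1 / ((R.card * m ^ (k - 1) : ℕ) : ℝ)
          * (N : ℝ) ^ (((k : ℝ) - 1 + Real.log R.card / Real.log m) / k)
        ≤ 1 / ((R.card * m ^ (k - 1) : ℕ) : ℝ) * ((R.card * m ^ (k - 1) : ℕ) : ℝ) ^ (t + 1) := by
          apply mul_le_mul_of_nonneg_left hle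
          positivity
      _ = ((R.card * m ^ (k - 1) : ℕ) : ℝ) ^ t := by
          rw [pow_succ]
          field_simp

/-- Boolean certificate: for all distinct `r, r'` in the list `R` there is a modulus `p`
in the list `P` such that `r - r'` is not a `k`-th power residue modulo `p`. -/
def certOK (k : ℕ) (P R : List ℕ) : Bool :=
  R.all fun r => R.all fun r' => (r == r') || P.any fun p =>
    (List.range p).all fun y => (y ^ k + r') % p != r % p

theorem cert_sound {m k : ℕ} {P R : List ℕ} (hP : ∀ p ∈ P, 0 < p ∧ p ∣ m)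
    (hcert : certOK k P R = true) :
    ∀ r ∈ R, ∀ r' ∈ R, r ≠ r' → ∀ x : ℕ, (x ^ k + r') % m ≠ r % m := by
  intro r hr r' hr' hne x hx
  unfold certOK at hcert
  rw [List.all_eq_true] at hcert
  have h1 := hcert r hr
  rw [List.all_eq_true] at h1
  have h2 := h1 r' hr'
  rw [Bool.or_eq_true] at h2
  rcases h2 with h2 | h2
  · exact hne (by simpa using h2)
  · rw [List.any_eq_true] at h2
    obtain ⟨p, hp, h3⟩ := h2
    rw [List.all_eq_true] at h3
    obtain ⟨hp0, hpm⟩ := hP p hp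
    have h4 := h3 (x % p) (List.mem_range.mpr (Nat.mod_lt _ hp0))
    have h5 : ((x % p) ^ k + r') % p = r % p := by
      have e1 : (x ^ k + r') % p = r % p := by
        have := congrArg (· % p) hx
        simpa [Nat.mod_mod_of_dvd _ hpm] using this
      rw [← e1, Nat.add_mod, ← Nat.pow_mod, ← Nat.add_mod]
    simp [h5] at h4

/-- Ruzsa's lower bound from a list certificate. -/
theorem lower_bound_of_cert {m k : ℕ} {P R : List ℕ} (γ : ℝ) (hm : Squarefree m) (hm1 : 1 < m)
    (hk : 1 ≤ k) (hP : ∀ p ∈ P, 0 < p ∧ p ∣ m) (hRne : R ≠ []) (hnodup : R.Nodup)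
    (hRm : ∀ r ∈ R, r < m) (hcert : certOK k P R = true)
    (hγ : γ = ((k : ℝ) - 1 + Real.log R.length / Real.log m) / k) :
    ∃ c : ℝ, 0 < c ∧ ∀ N : ℕ, 1 ≤ N → ∃ A : Finset ℕ, A ⊆ Finset.Icc 1 N ∧
      (∀ a ∈ A, ∀ b ∈ A, ∀ n : ℕ, 1 ≤ n → (a : ℤ) - b ≠ (n : ℤ) ^ k) ∧
      c * (N : ℝ) ^ γ ≤ A.card := by
  have h := lower_bound (m := m) (k := k) (R := R.toFinset) hm hm1 hk
    (by
      rw [List.toFinset_nonempty_iff]
      exact hRne)
    (by
      intro r hr
      exact hRm r (List.mem_toFinset.mp hr))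
    (by
      intro r hr r' hr'
      exact cert_sound hP hcert r (List.mem_toFinset.mp hr) r' (List.mem_toFinset.mp hr'))
  rw [List.toFinset_card_of_nodup hnodup] at h
  rw [hγ]
  exact h

/-- Test instance: Ruzsa's modulus `65` with seven residues. -/
theorem test65 : ∃ c : ℝ, 0 < c ∧ ∀ N : ℕ, 1 ≤ N → ∃ A : Finset ℕ, A ⊆ Finset.Icc 1 N ∧
    (∀ a ∈ A, ∀ b ∈ A, ∀ n : ℕ, 1 ≤ n → (a : ℤ) - b ≠ (n : ℤ) ^ 2) ∧
    c * (N : ℝ) ^ ((1 + Real.log 7 / Real.log 65) / 2 : ℝ) ≤ A.card := by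
  refine lower_bound_of_cert (m := 65) (k := 2) (P := [5, 13])
    (R := [0, 12, 23, 34, 46, 54, 57]) _ ?_ (by norm_num) (by norm_num) (by decide) (by decide)
    (by decide) (by decide) (by decide) (by norm_num)
  rw [show (65 : ℕ) = 5 * 13 from rfl, Nat.squarefree_mul_iff]
  exact ⟨by norm_num, (by norm_num : Nat.Prime 5).squarefree,
    (by norm_num : Nat.Prime 13).squarefree⟩

/-- Test instance: modulus `205` with twelve residues. -/
theorem test205 : ∃ c : ℝ, 0 < c ∧ ∀ N : ℕ, 1 ≤ N → ∃ A : Finset ℕ, A ⊆ Finset.Icc 1 N ∧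
    (∀ a ∈ A, ∀ b ∈ A, ∀ n : ℕ, 1 ≤ n → (a : ℤ) - b ≠ (n : ℤ) ^ 2) ∧
    c * (N : ℝ) ^ ((1 + Real.log 12 / Real.log 205) / 2 : ℝ) ≤ A.card := by
  refine lower_bound_of_cert (m := 205) (k := 2) (P := [5, 41])
    (R := [0, 6, 8, 78, 102, 104, 110, 116, 179, 181, 187, 198]) _ ?_ (by norm_num)
    (by norm_num) (by decide) (by decide) (by decide) (by decide) (by decide) (by norm_num)
  rw [show (205 : ℕ) = 5 * 41 from rfl, Nat.squarefree_mul_iff]
  exact ⟨by norm_num, (by norm_num : Nat.Prime 5).squarefree,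
    (by norm_num : Nat.Prime 41).squarefree⟩

/-- Comparison of two ratios of logarithms through a rational number `p / q`. -/
theorem log_ratio_lt {a b c d p q : ℕ} (hb : 1 < b) (hc : 1 ≤ c) (hd : 1 < d)
    (ha : 1 ≤ a) (hq : 0 < q) (h1 : a ^ q < b ^ p) (h2 : d ^ p < c ^ q) :
    Real.log a / Real.log b < Real.log c / Real.log d := by
  have hlb : 0 < Real.log b := Real.log_pos (by exact_mod_cast hb)
  have hld : 0 < Real.log d := Real.log_pos (by exact_mod_cast hd)
  have hq0 : (0 : ℝ) < q := by exact_mod_cast hq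
  have ha0 : (0 : ℝ) < a := by exact_mod_cast ha
  have hb0 : (0 : ℝ) < b := by exact_mod_cast (by omega : 0 < b)
  have hc0 : (0 : ℝ) < c := by exact_mod_cast hc
  have hd0 : (0 : ℝ) < d := by exact_mod_cast (by omega : 0 < d)
  have e1 : (q : ℝ) * Real.log a < p * Real.log b := by
    have h : ((a : ℝ) ^ q) < (b : ℝ) ^ p := by exact_mod_cast h1
    have := Real.log_lt_log (by positivity) h
    rwa [Real.log_pow, Real.log_pow] at this
  have e2 : (p : ℝ) * Real.log d < q * Real.log c := by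
    have h : ((d : ℝ) ^ p) < (c : ℝ) ^ q := by exact_mod_cast h2
    have := Real.log_lt_log (by positivity) h
    rwa [Real.log_pow, Real.log_pow] at this
  have f1 : Real.log a / Real.log b < p / q := by
    rw [div_lt_div_iff₀ hlb hq0]
    linarith
  have f2 : (p : ℝ) / q < Real.log c / Real.log d := by
    rw [div_lt_div_iff₀ hq0 hld]
    linarith
  linarith

end Vale.Agent.Helper7.Ruzsa
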